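import Vale.Agent.P092.H790.Ind

/-!
P092 (helper953), team D, block [D-CNT](3): from the cyclic vectors to all vectors.
-/

set_option linter.all false

open scoped InnerProductSpace ENNReal
open MeasureTheory Filter Topology ContinuousLinearMap

namespace Vale.Agent.P092.H953

open Vale.Agent.P092.H790

section gen

variable {X : Type*} [MeasurableSpace X] {μ : Measure X} [IsProbabilityMeasure μ]
  {K : Type*} [NormedAddCommGroup K] [InnerProductSpace ℂ K]

theorem ind_const {A : Set X} (hA : MeasurableSet A) (v : K) :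
    ind μ K A (Lp.const 2 μ v) = indicatorConstLp 2 hA (measure_ne_top μ A) v := by
  refine Lp.ext ?_
  filter_upwards [ind_ae hA (Lp.const 2 μ v : Lp K 2 μ), Lp.coeFn_const (p := 2) (μ := μ) v,
    indicatorConstLp_coeFn (p := 2) (hs := hA) (hμs := measure_ne_top μ A) (c := v)] with x h3 h4 h5
  rw [h3, h5]
  by_cases hx : x ∈ A
  · rw [Set.indicator_of_mem hx, Set.indicator_of_mem hx, h4]; rfl
  · rw [Set.indicator_of_notMem hx, Set.indicator_of_notMem hx]

theorem comp_const (A : K →L[ℂ] K) (v : K) :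
    A.compLpL 2 μ (Lp.const 2 μ v) = Lp.const 2 μ (A v) := by
  refine Lp.ext ?_
  filter_upwards [fld_comp A (Lp.const 2 μ v), Lp.coeFn_const (p := 2) (μ := μ) v,
    Lp.coeFn_const (p := 2) (μ := μ) (A v)] with x h1 h2 h3
  rw [h1, h2, h3]; rfl

/-- A closed subspace containing `1_A s` (`s` in a total set) is everything. -/
theorem top_of_ind {S : Set K} (hS : Dense (Submodule.span ℂ S : Set K))
    (M : Submodule ℂ (Lp K 2 μ)) (hM : IsClosed (M : Set (Lp K 2 μ)))
    (h : ∀ s ∈ S, ∀ A, MeasurableSet A → ind μ K A (Lp.const 2 μ s) ∈ M) (ζ : Lp K 2 μ) :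
    ζ ∈ M := by
  have h0 : ∀ (A : Set X) (c : K), MeasurableSet A → ind μ K A (Lp.const 2 μ c) ∈ M := by
    intro A c hA
    obtain ⟨N, hN⟩ : ∃ N : Submodule ℂ K, N = M.comap
      (((ind μ K A).comp (Lp.constL 2 μ ℂ)) : K →ₗ[ℂ] Lp K 2 μ) := ⟨_, rfl⟩
    have hmem : ∀ c, c ∈ N ↔ ind μ K A (Lp.const 2 μ c) ∈ M := by
      intro c
      rw [hN]
      exact Iff.rfl
    have hNc : IsClosed (N : Set K) := by
      have e : (N : Set K) = (fun c => ((ind μ K A).comp (Lp.constL 2 μ ℂ)) c) ⁻¹' (M : Set _) := by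
        rw [hN]; rfl
      rw [e]
      exact hM.preimage (ContinuousLinearMap.continuous _)
    have hle : Submodule.span ℂ S ≤ N := Submodule.span_le.2 fun s hs => (hmem s).2 (h s hs A hA)
    have h1 : (N : Set K) = Set.univ := by
      refine Set.eq_univ_of_forall fun c => ?_
      have h2 : c ∈ closure (Submodule.span ℂ S : Set K) := hS c
      exact (closure_minimal (fun x hx => hle hx) hNc) h2
    exact (hmem c).1 (by
      have : c ∈ (N : Set K) := by rw [h1]; trivial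
      exact this)
  refine Lp.induction (E := K) (p := 2) (μ := μ) (by simp) (fun f => f ∈ M) ?_ ?_ ?_ ζ
  · intro c s hs hμs
    have h1 := h0 s c hs
    rw [ind_const hs] at h1
    exact h1
  · intro f g hf hg _ h1 h2
    exact M.add_mem h1 h2
  · exact hM

/-- (a) -/
theorem dense_ind {S : Set K} (hS : Dense (Submodule.span ℂ S : Set K)) :
    Dense (Submodule.span ℂ {ξ : Lp K 2 μ | ∃ s ∈ S, ∃ A, MeasurableSet A ∧
      ξ = ind μ K A (Lp.const 2 μ s)} : Set (Lp K 2 μ)) := by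
  intro ζ
  have h1 := top_of_ind (μ := μ) hS (Submodule.span ℂ {ξ : Lp K 2 μ | ∃ s ∈ S, ∃ A, MeasurableSet A ∧
      ξ = ind μ K A (Lp.const 2 μ s)}).topologicalClosure
    (Submodule.isClosed_topologicalClosure _) (fun s hs A hA =>
      Submodule.le_topologicalClosure _ (Submodule.subset_span ⟨s, hs, A, hA, rfl⟩)) ζ
  rw [← SetLike.mem_coe, Submodule.topologicalClosure_coe] at h1
  exact h1

end gen

section cols

variable {X : Type*} [MeasurableSpace X] {μ : Measure X} [IsProbabilityMeasure μ]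
  {K : Type*} [NormedAddCommGroup K] [InnerProductSpace ℂ K]
  {Γ₁ Γ₂ ι : Type*} {R₁ : Γ₁ → K →L[ℂ] K} {R₂ : Γ₂ → K →L[ℂ] K} {ω : ι → K}

/-- (c) convergence to zero of a bounded family on the vectors `R₁(h) ω_i`, hence on all
vectors. -/
theorem tendsto_of_cols
    (hS : Dense (Submodule.span ℂ {v : K | ∃ g h i, v = R₂ g (R₁ h (ω i))} : Set K))
    {α : Type*} {l : Filter α} {T : α → Lp K 2 μ →L[ℂ] Lp K 2 μ} {C : ℝ}
    (hC : ∀ᶠ n in l, ‖T n‖ ≤ C)
    (hD : ∀ n A, MeasurableSet A → T n * ind μ K A = ind μ K A * T n)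
    (hR : ∀ n g, T n * (R₂ g).compLpL 2 μ = (R₂ g).compLpL 2 μ * T n)
    (h : ∀ a i, Tendsto (fun n => T n ((R₁ a).compLpL 2 μ (Lp.const 2 μ (ω i)))) l (𝓝 0))
    (ζ : Lp K 2 μ) : Tendsto (fun n => T n ζ) l (𝓝 0) := by
  obtain ⟨M, hM⟩ : ∃ M : Submodule ℂ (Lp K 2 μ), M =
    { carrier := {ζ | Tendsto (fun n => T n ζ) l (𝓝 0)}
      add_mem' := fun {a b} ha hb => by
        have h1 := Tendsto.add (show Tendsto (fun n => T n a) l (𝓝 0) from ha)
          (show Tendsto (fun n => T n b) l (𝓝 0) from hb)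
        rw [add_zero] at h1
        refine h1.congr fun n => ?_
        rw [map_add]
      zero_mem' := by
        refine tendsto_const_nhds.congr fun n => ?_
        rw [map_zero]
      smul_mem' := fun c a ha => by
        have h1 := Tendsto.const_smul (show Tendsto (fun n => T n a) l (𝓝 0) from ha) c
        rw [smul_zero] at h1
        refine h1.congr fun n => ?_
        rw [map_smul] } := ⟨_, rfl⟩
  have hmem : ∀ ζ, ζ ∈ M ↔ Tendsto (fun n => T n ζ) l (𝓝 0) := by
    intro ζ; rw [hM]; exact Iff.rfl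
  have hcl : IsClosed (M : Set (Lp K 2 μ)) := by
    rw [← isSeqClosed_iff_isClosed]
    intro u a hu ha
    refine (hmem a).2 ?_
    rw [Metric.tendsto_nhds]
    intro ε hε
    have hC0 : 0 < |C| + 1 := by positivity
    obtain ⟨k, hk⟩ := ((Metric.tendsto_nhds.1 ha) (ε / (2 * (|C| + 1))) (by positivity)).exists
    have h1 := (Metric.tendsto_nhds.1 ((hmem _).1 (hu k))) (ε / 2) (by positivity)
    filter_upwards [h1, hC] with n h2 h3
    rw [dist_zero_right] at h2 ⊢
    have h4 : ‖T n (a - u k)‖ < ε / 2 := by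
      have h5 : ‖T n (a - u k)‖ ≤ |C| * ‖a - u k‖ := by
        refine ((T n).le_opNorm _).trans ?_
        gcongr
        exact h3.trans (le_abs_self C)
      rw [dist_eq_norm, norm_sub_rev] at hk
      calc ‖T n (a - u k)‖ ≤ |C| * ‖a - u k‖ := h5
        _ ≤ (|C| + 1) * ‖a - u k‖ := by
            have := norm_nonneg (a - u k)
            nlinarith
        _ < (|C| + 1) * (ε / (2 * (|C| + 1))) := by gcongr
        _ = ε / 2 := by field_simp
    have h5 : T n a = T n (a - u k) + T n (u k) := by rw [← map_add, sub_add_cancel]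
    rw [h5]
    refine (norm_add_le _ _).trans_lt ?_
    linarith
  refine (hmem ζ).1 (top_of_ind hS M hcl ?_ ζ)
  rintro s ⟨g, a, i, rfl⟩ A hA
  refine (hmem _).2 ?_
  have h1 : ∀ n, T n (ind μ K A (Lp.const 2 μ (R₂ g (R₁ a (ω i))))) =
      ind μ K A ((R₂ g).compLpL 2 μ (T n ((R₁ a).compLpL 2 μ (Lp.const 2 μ (ω i))))) := by
    intro n
    have h2 := congrArg (fun T : Lp K 2 μ →L[ℂ] Lp K 2 μ =>
      T (Lp.const 2 μ (R₂ g (R₁ a (ω i))))) (hD n A hA)
    change T n (ind μ K A _) = ind μ K A (T n _) at h2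
    rw [h2, ← comp_const, ← comp_const]
    have h3 := congrArg (fun T : Lp K 2 μ →L[ℂ] Lp K 2 μ =>
      T ((R₁ a).compLpL 2 μ (Lp.const 2 μ (ω i)))) (hR n g)
    change T n ((R₂ g).compLpL 2 μ _) = (R₂ g).compLpL 2 μ (T n _) at h3
    rw [h3]
  simp_rw [h1]
  have h2 := ((ind μ K A).continuous.comp ((R₂ g).compLpL 2 μ).continuous).tendsto 0
  have h3 := h2.comp (h a i)
  have h4 : ((ind μ K A) ∘ ((R₂ g).compLpL 2 μ)) (0 : Lp K 2 μ) = 0 := by
    simp
  rw [h4] at h3
  exact h3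

/-- (b) -/
theorem zero_of_cols
    (hS : Dense (Submodule.span ℂ {v : K | ∃ g h i, v = R₂ g (R₁ h (ω i))} : Set K))
    {T : Lp K 2 μ →L[ℂ] Lp K 2 μ}
    (hD : ∀ A, MeasurableSet A → T * ind μ K A = ind μ K A * T)
    (hR : ∀ g, T * (R₂ g).compLpL 2 μ = (R₂ g).compLpL 2 μ * T)
    (h : ∀ a i, T ((R₁ a).compLpL 2 μ (Lp.const 2 μ (ω i))) = 0) : T = 0 := by
  ext1 ζ
  have h1 := tendsto_of_cols (μ := μ) hS (l := (⊤ : Filter Unit)) (T := fun _ => T) (C := ‖T‖)
    (Eventually.of_forall fun _ => le_rfl) (fun _ => hD) (fun _ => hR)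
    (fun a i => by rw [h a i]; exact tendsto_const_nhds) ζ
  haveI : (⊤ : Filter Unit).NeBot := inferInstance
  exact tendsto_nhds_unique tendsto_const_nhds h1

/-- (d) the form used for `β_c(u) B`: `P` and `B` are conjugated by the leg-1 translations. -/
theorem mul_zero_of_cols
    (hS : Dense (Submodule.span ℂ {v : K | ∃ g h i, v = R₂ g (R₁ h (ω i))} : Set K))
    {R₁' : Γ₁ → K →L[ℂ] K} (hR' : ∀ a, R₁ a * R₁' a = 1)
    {P B : Lp K 2 μ →L[ℂ] Lp K 2 μ}
    (hP : ∀ A, MeasurableSet A → P * ind μ K A = ind μ K A * P)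
    (hB : ∀ A, MeasurableSet A → B * ind μ K A = ind μ K A * B)
    (hP2 : ∀ g, P * (R₂ g).compLpL 2 μ = (R₂ g).compLpL 2 μ * P)
    (hB2 : ∀ g, B * (R₂ g).compLpL 2 μ = (R₂ g).compLpL 2 μ * B)
    (h : ∀ a i, ((R₁' a).compLpL 2 μ * P * (R₁ a).compLpL 2 μ)
      (((R₁' a).compLpL 2 μ * B * (R₁ a).compLpL 2 μ) (Lp.const 2 μ (ω i))) = 0) :
    P * B = 0 := by
  refine zero_of_cols hS (fun A hA => ?_) (fun g => ?_) fun a i => ?_
  · rw [mul_assoc, hB A hA, ← mul_assoc, hP A hA, mul_assoc]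
  · rw [mul_assoc, hB2 g, ← mul_assoc, hP2 g, mul_assoc]
  · have h1 := congrArg ((R₁ a).compLpL 2 μ) (h a i)
    rw [map_zero] at h1
    have e1 : ∀ ζ : Lp K 2 μ, (R₁ a).compLpL 2 μ ((R₁' a).compLpL 2 μ ζ) = ζ := by
      intro ζ
      have h2 : (R₁ a).compLpL 2 μ * (R₁' a).compLpL 2 μ = 1 := by
        rw [← comp_mul, hR', comp_one]
      exact congrArg (fun T : Lp K 2 μ →L[ℂ] Lp K 2 μ => T ζ) h2
    change (R₁ a).compLpL 2 μ ((R₁' a).compLpL 2 μ (P ((R₁ a).compLpL 2 μ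
      ((R₁' a).compLpL 2 μ (B ((R₁ a).compLpL 2 μ (Lp.const 2 μ (ω i)))))))) = 0 at h1
    rw [e1, e1] at h1
    exact h1

end cols

end Vale.Agent.P092.H953
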